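import Crest.Agent.N250.Wt.Td

/-!
# Row 250, end chart (helper40): pull-back of smooth functions along a parametrisation

`ψ : V → X` continuous with `x ∘ ψ` smooth: chain rule and bounds of all derivatives.
-/

set_option autoImplicit false
set_option linter.unusedSectionVars false
set_option maxSynthPendingDepth 3
open Set Filter Topology Function
open scoped ContDiff

noncomputable section

namespace Crest.Agent.N250.Ec

open Crest.Agent.N222 hiding E ee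
open WS.Lim (DW sm_DW Ph Ph_eq)

variable {d : ℕ} {ι : Type} [Fintype ι] [DecidableEq ι] {X : Type} [TopologicalSpace X]
  {V F : Type} [NormedAddCommGroup V] [NormedSpace ℝ V] [NormedAddCommGroup F] [NormedSpace ℝ F]
  {M : Imm d ι X} {ψ : V → X} {z : V} {n : WithTop ℕ∞} {u : X → F}

theorem chart_cd {x : X → N222.E ι} {e : OpenPartialHomeomorph X (N222.E (Fin d))}
    (he : IsChart x e) (hn : n ≤ ∞) (hc : ContinuousAt ψ z) (hs : ψ z ∈ e.source)
    (hx : ContDiffAt ℝ n (x ∘ ψ) z) : ContDiffAt ℝ n (e ∘ ψ) z := by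
  set w := e (ψ z) with hw
  have hwt : w ∈ e.target := e.map_source hs
  have hφ : ContDiffAt ℝ ∞ (x ∘ e.symm) w := he.sm.contDiffAt (e.open_target.mem_nhds hwt)
  set J := fderiv ℝ (x ∘ e.symm) w with hJ
  obtain ⟨v, hv⟩ := isUnit_gram (he.inj w hwt)
  have hψ : ContDiffAt ℝ ∞ (ContinuousLinearMap.adjoint J ∘ x ∘ e.symm) w :=
    (ContinuousLinearMap.adjoint J).contDiff.contDiffAt.comp w hφ
  have hψ' : HasFDerivAt (ContinuousLinearMap.adjoint J ∘ x ∘ e.symm)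
      (ContinuousLinearEquiv.ofUnit v : N222.E (Fin d) →L[ℝ] N222.E (Fin d)) w := by
    have h1 := (ContinuousLinearMap.adjoint J).hasFDerivAt.comp w
      (hφ.differentiableAt (by simp)).hasFDerivAt
    have h2 : (ContinuousLinearEquiv.ofUnit v : N222.E (Fin d) →L[ℝ] N222.E (Fin d)) =
        ContinuousLinearMap.adjoint J ∘L J := by
      rw [← hv]; rfl
    rw [h2]; exact h1
  have h0 : (∞ : WithTop ℕ∞) ≠ 0 := by simp
  have hinv := hψ.to_localInverse hψ' h0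
  have hleft := (hψ.hasStrictFDerivAt' hψ' h0).eventually_left_inverse
  have hc' : ContinuousAt (e ∘ ψ) z := ContinuousAt.comp (f := ψ) (e.continuousAt hs) hc
  have hs' : ∀ᶠ y in 𝓝 z, ψ y ∈ e.source := hc.eventually (e.open_source.mem_nhds hs)
  have h3 : ContDiffAt ℝ n (ContinuousLinearMap.adjoint J ∘ x ∘ ψ) z :=
    (ContinuousLinearMap.adjoint J).contDiff.contDiffAt.comp z hx
  have h4 : (ContinuousLinearMap.adjoint J ∘ x ∘ e.symm) w =
      (ContinuousLinearMap.adjoint J ∘ x ∘ ψ) z := by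
    simp only [comp_apply, hw, e.left_inv hs]
  rw [h4] at hinv
  refine ((hinv.of_le hn).comp z h3).congr_of_eventuallyEq ?_
  filter_upwards [hs', hc'.eventually hleft] with y hy hy'
  simp only [comp_apply, e.left_inv hy] at hy' ⊢
  exact hy'.symm

theorem comp_ev {Z : Type*} (f : X → Z) (hc : ContinuousAt ψ z) :
    f ∘ ψ =ᶠ[𝓝 z] (f ∘ (M.ch (ψ z)).symm) ∘ (M.ch (ψ z) ∘ ψ) := by
  filter_upwards [hc.eventually ((M.ch (ψ z)).open_source.mem_nhds (M.mem _))] with y hy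
  simp only [comp_apply, (M.ch (ψ z)).left_inv hy]

/-- pull-backs of smooth functions are as smooth as `x ∘ ψ` -/
theorem cd_comp (hu : M.Sm u) (hn : n ≤ ∞) (hc : ContinuousAt ψ z)
    (hx : ContDiffAt ℝ n (M.x ∘ ψ) z) : ContDiffAt ℝ n (u ∘ ψ) z := by
  have h1 := chart_cd (M.isChart (ψ z)) hn hc (M.mem _) hx
  have h2 : ContDiffAt ℝ n (u ∘ (M.ch (ψ z)).symm) ((M.ch (ψ z) ∘ ψ) z) :=
    ((hu (ψ z)).contDiffAt ((M.ch _).open_target.mem_nhds ((M.ch _).map_source (M.mem _)))).of_le hn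
  exact (h2.comp z h1).congr_of_eventuallyEq (comp_ev u hc)

/-- chain rule -/
theorem hasF_comp (hu : M.DiffAt u (ψ z)) (hc : ContinuousAt ψ z)
    (hx : ContDiffAt ℝ 1 (M.x ∘ ψ) z) :
    HasFDerivAt (u ∘ ψ) (M.td u (ψ z) ∘L fderiv ℝ (M.x ∘ ψ) z) z := by
  have h1 := (chart_cd (M.isChart (ψ z)) (by simp) hc (M.mem _) hx).differentiableAt one_ne_zero
  have h2 : HasFDerivAt (u ∘ (M.ch (ψ z)).symm) (fderiv ℝ (u ∘ (M.ch (ψ z)).symm) (M.ch (ψ z) (ψ z)))
      ((M.ch (ψ z) ∘ ψ) z) := DifferentiableAt.hasFDerivAt hu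
  have h3 : HasFDerivAt (M.x ∘ (M.ch (ψ z)).symm)
      (fderiv ℝ (M.x ∘ (M.ch (ψ z)).symm) (M.ch (ψ z) (ψ z))) ((M.ch (ψ z) ∘ ψ) z) :=
    DifferentiableAt.hasFDerivAt (M.sm_x.diffAt (ψ z))
  have h4 := (h3.comp z h1.hasFDerivAt).congr_of_eventuallyEq (comp_ev (M := M) M.x hc)
  rw [h4.fderiv, ← ContinuousLinearMap.comp_assoc,
    ← Imm.fderiv_chart u (M.isChart (ψ z)) (M.mem _)]
  exact (h2.comp z h1.hasFDerivAt).congr_of_eventuallyEq (comp_ev u hc)

theorem fderiv_comp_apply (hu : M.DiffAt u (ψ z)) (hc : ContinuousAt ψ z)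
    (hx : ContDiffAt ℝ 1 (M.x ∘ ψ) z) (w : V) : fderiv ℝ (u ∘ ψ) z w =
      ∑ a, fderiv ℝ (M.x ∘ ψ) z w a • M.td u (ψ z) (N222.ee a) := by
  rw [(hasF_comp hu hc hx).fderiv, ContinuousLinearMap.comp_apply]
  conv_lhs => rw [eq_sum_ee (fderiv ℝ (M.x ∘ ψ) z w), map_sum]
  simp only [map_smul]


theorem DW_append (l : List ι) (a : ι) (u : X → F) :
    DW M l (fun p => M.td u p (N222.ee a)) = DW M (l ++ [a]) u := by
  induction l with
  | nil => rfl
  | cons b l ih => funext p; simp only [DW, List.cons_append, ih]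

/-- `(J, c) ↦ (w ↦ (J w) a • c)` -/
def bil (V F : Type) [NormedAddCommGroup V] [NormedSpace ℝ V] [NormedAddCommGroup F]
    [NormedSpace ℝ F] (a : ι) : (V →L[ℝ] N222.E ι) →L[ℝ] F →L[ℝ] V →L[ℝ] F :=
  (ContinuousLinearMap.smulRightL ℝ V F) ∘L
    (ContinuousLinearMap.compL ℝ V (N222.E ι) ℝ (EuclideanSpace.proj a))

theorem bil_apply (a : ι) (J : V →L[ℝ] N222.E ι) (c : F) (w : V) : bil V F a J c w = J w a • c := rfl

theorem norm_bil (a : ι) : ‖bil V F a‖ ≤ 1 := by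
  refine ContinuousLinearMap.opNorm_le_bound _ zero_le_one fun J => ?_
  refine ContinuousLinearMap.opNorm_le_bound _ (by positivity) fun c => ?_
  refine ContinuousLinearMap.opNorm_le_bound _ (by positivity) fun w => ?_
  rw [bil_apply, norm_smul, one_mul, mul_right_comm]
  exact mul_le_mul_of_nonneg_right ((PiLp.norm_apply_le (J w) a).trans (J.le_opNorm w)) (norm_nonneg c)

/-- a parametrisation on the open set `Ω` -/
structure Pm (M : Imm d ι X) (Ω : Set V) (ψ : V → X) : Prop where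
  isOpen : IsOpen Ω
  cont : ContinuousOn ψ Ω
  sm : ContDiffOn ℝ ∞ (M.x ∘ ψ) Ω

namespace Pm

variable {Ω : Set V} (h : Pm M Ω ψ)
include h

theorem ca (hz : z ∈ Ω) : ContinuousAt ψ z := h.cont.continuousAt (h.isOpen.mem_nhds hz)

theorem cda (hz : z ∈ Ω) (hn : n ≤ ∞) : ContDiffAt ℝ n (M.x ∘ ψ) z :=
  (h.sm.contDiffAt (h.isOpen.mem_nhds hz)).of_le hn

theorem mono {Ω' : Set V} (ho : IsOpen Ω') (hs : Ω' ⊆ Ω) : Pm M Ω' ψ :=
  ⟨ho, h.cont.mono hs, h.sm.mono hs⟩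

theorem comp {W : Type} [NormedAddCommGroup W] [NormedSpace ℝ W] {g : W → V} {Ω' : Set W}
    (ho : IsOpen Ω') (hg : ContDiffOn ℝ ∞ g Ω') (hm : MapsTo g Ω' Ω) : Pm M Ω' (ψ ∘ g) :=
  ⟨ho, h.cont.comp hg.continuousOn hm, h.sm.comp hg hm⟩

theorem cdAt (hu : M.Sm u) (hz : z ∈ Ω) : ContDiffAt ℝ ∞ (u ∘ ψ) z :=
  cd_comp hu le_rfl (h.ca hz) (h.cda hz le_rfl)

theorem cd (hu : M.Sm u) : ContDiffOn ℝ ∞ (u ∘ ψ) Ω := fun _ hz => (h.cdAt hu hz).contDiffWithinAt


theorem fd (hu : M.Sm u) (hz : z ∈ Ω) (w : V) : fderiv ℝ (u ∘ ψ) z w =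
    ∑ a, fderiv ℝ (M.x ∘ ψ) z w a • M.td u (ψ z) (N222.ee a) :=
  fderiv_comp_apply (hu.diffAt _) (h.ca hz) (h.cda hz (by simp)) w

theorem fd_bil (hu : M.Sm u) (hz : z ∈ Ω) : fderiv ℝ (u ∘ ψ) z =
    ∑ a, bil V F a (fderiv ℝ (M.x ∘ ψ) z) (((fun p => M.td u p (N222.ee a)) ∘ ψ) z) := by
  ext1 w
  rw [h.fd hu hz, sum_apply]
  rfl

end Pm

/-- the constants of `Pm.jet_le` -/
def cj (N A : ℝ) : ℕ → ℝ
  | 0 => 1
  | k + 1 => cj N A k * (1 + N * 2 ^ k * A)

theorem one_le_cj {N A : ℝ} (hN : 0 ≤ N) (hA : 0 ≤ A) : ∀ k, 1 ≤ cj N A k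
  | 0 => le_rfl
  | k + 1 => one_le_mul_of_one_le_of_one_le (one_le_cj hN hA k) (le_add_of_nonneg_right (by positivity))

/-- all derivatives of a pull-back are bounded by the tangential derivatives -/
theorem Pm.jet_le {Ω : Set V} (h : Pm M Ω ψ) (hz : z ∈ Ω) {A : ℝ} (hA : 0 ≤ A) :
    ∀ (k : ℕ) {u : X → F} {B : ℝ}, M.Sm u →
      (∀ i, 1 ≤ i → i ≤ k → ‖iteratedFDeriv ℝ i (M.x ∘ ψ) z‖ ≤ A) →
      (∀ l : List ι, l.length ≤ k → ‖DW M l u (ψ z)‖ ≤ B) →
      ∀ j ≤ k, ‖iteratedFDeriv ℝ j (u ∘ ψ) z‖ ≤ cj (Fintype.card ι) A k * B := by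
  intro k
  induction k with
  | zero =>
    intro u B _ _ hB j hj
    obtain rfl := Nat.le_zero.1 hj
    simpa [cj, DW] using hB [] le_rfl
  | succ k ih =>
    intro u B hu hP hB j hj
    have hB0 : 0 ≤ B := (norm_nonneg _).trans (hB [] (by simp))
    have hN : (0 : ℝ) ≤ Fintype.card ι := Nat.cast_nonneg _
    have hc := one_le_cj hN hA k
    rcases j with _ | j
    · have h0 := hB [] (by simp)
      rw [norm_iteratedFDeriv_zero]
      exact h0.trans (le_mul_of_one_le_left hB0 (one_le_cj hN hA _))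
    have hu' : ∀ a, M.Sm fun p => M.td u p (N222.ee a) := fun a => sm_DW hu [a]
    have h1 : ContDiffOn ℝ ∞ (fderiv ℝ (M.x ∘ ψ)) Ω := h.sm.fderiv_of_isOpen h.isOpen (by simp)
    have hU := h.isOpen.uniqueDiffOn (𝕜 := ℝ)
    have e1 : iteratedFDeriv ℝ j (fderiv ℝ (u ∘ ψ)) z = ∑ a, iteratedFDerivWithin ℝ j
        (fun y => bil V F a (fderiv ℝ (M.x ∘ ψ) y) (((fun p => M.td u p (N222.ee a)) ∘ ψ) y)) Ω z := by
      rw [← iteratedFDerivWithin_of_isOpen j h.isOpen hz,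
        iteratedFDerivWithin_congr (fun y hy => h.fd_bil hu hy) hz]
      exact iteratedFDerivWithin_fun_sum_apply hU hz fun a _ =>
        ((((bil V F a).contDiff.comp_contDiffOn h1).clm_apply (h.cd (hu' a))) z hz).of_le
          (by exact_mod_cast le_top)
    have e2 : ∀ a, ‖iteratedFDerivWithin ℝ j (fun y => bil V F a (fderiv ℝ (M.x ∘ ψ) y)
        (((fun p => M.td u p (N222.ee a)) ∘ ψ) y)) Ω z‖ ≤ 2 ^ k * A * (cj (Fintype.card ι) A k * B) := by
      intro a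
      refine ((bil V F a).norm_iteratedFDerivWithin_le_of_bilinear_of_le_one h1 (h.cd (hu' a)) hU hz
        (by exact_mod_cast le_top) (norm_bil a)).trans ?_
      calc _ ≤ ∑ i ∈ Finset.range (j + 1), (j.choose i : ℝ) * A * (cj (Fintype.card ι) A k * B) := by
            refine Finset.sum_le_sum fun i hi => ?_
            have hi' := Finset.mem_range.1 hi
            rw [iteratedFDerivWithin_of_isOpen _ h.isOpen hz, iteratedFDerivWithin_of_isOpen _ h.isOpen hz,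
              norm_iteratedFDeriv_fderiv]
            refine mul_le_mul (mul_le_mul_of_nonneg_left (hP _ (by omega) (by omega)) (by positivity))
              (ih (hu' a) (fun i h1 h2 => hP i h1 (by omega)) (fun l hl => ?_) _ (by omega))
              (norm_nonneg _) (by positivity)
            rw [DW_append]
            exact hB _ (by simp; omega)
        _ = 2 ^ j * A * (cj (Fintype.card ι) A k * B) := by
            rw [← Finset.sum_mul, ← Finset.sum_mul, ← Nat.cast_sum, Nat.sum_range_choose]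
            push_cast; ring
        _ ≤ _ := by gcongr; exacts [one_le_two, by omega]
    rw [← norm_iteratedFDeriv_fderiv, e1]
    refine (norm_sum_le _ _).trans ((Finset.sum_le_card_nsmul _ _ _ fun a _ => e2 a).trans ?_)
    rw [Finset.card_univ, nsmul_eq_mul, cj]
    nlinarith [mul_nonneg (zero_le_one.trans hc) hB0]

/-- uniform version on a set where the derivatives of `x ∘ ψ` are bounded -/
theorem Pm.jet_bdd {Ω K : Set V} (h : Pm M Ω ψ) (hK : K ⊆ Ω) (k : ℕ)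
    (hb : ∀ i, ∃ A, ∀ z ∈ K, ‖iteratedFDeriv ℝ i (M.x ∘ ψ) z‖ ≤ A) : ∃ C, 1 ≤ C ∧
      ∀ (u : X → F) (B : ℝ), M.Sm u → ∀ z ∈ K, (∀ l : List ι, l.length ≤ k → ‖DW M l u (ψ z)‖ ≤ B) →
        ∀ j ≤ k, ‖iteratedFDeriv ℝ j (u ∘ ψ) z‖ ≤ C * B := by
  choose A hA using hb
  have h0 : 0 ≤ ∑ i ∈ Finset.range (k + 1), |A i| := Finset.sum_nonneg fun _ _ => abs_nonneg _
  refine ⟨_, one_le_cj (Nat.cast_nonneg _) h0 k, fun u B hu z hz hB =>
    h.jet_le (hK hz) h0 k hu (fun i _ hi => (hA i z hz).trans ((le_abs_self _).trans ?_)) hB⟩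
  exact Finset.single_le_sum (f := fun i => |A i|) (fun _ _ => abs_nonneg _)
    (Finset.mem_range.2 (by omega))

theorem bdd_of_cpt {G : Type} [NormedAddCommGroup G] [NormedSpace ℝ G] {g : V → G} {Ω K : Set V}
    (ho : IsOpen Ω) (hg : ContDiffOn ℝ ∞ g Ω) (hK : IsCompact K) (hs : K ⊆ Ω) (i : ℕ) :
    ∃ A, ∀ z ∈ K, ‖iteratedFDeriv ℝ i g z‖ ≤ A := by
  obtain ⟨A, hA⟩ := hK.exists_bound_of_continuousOn
    ((hg.continuousOn_iteratedFDerivWithin (m := i) (by exact_mod_cast le_top) ho.uniqueDiffOn).mono hs)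
  exact ⟨A, fun z hz => by rw [← iteratedFDerivWithin_of_isOpen i ho (hs hz)]; exact hA z hz⟩

end Crest.Agent.N250.Ec

end
private theorem rz_6bad78253c : type_of% @_root_.Crest.Agent.N250.Ec.cj.eq_def := @_root_.Crest.Agent.N250.Ec.cj.eq_def -- L167
private theorem rz_90acfc0e05 : type_of% @_root_.Crest.Agent.N250.Ec.cj.eq_1 := @_root_.Crest.Agent.N250.Ec.cj.eq_1 -- L167
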